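import Vale.Agent.P011.H439.State

/-!
**The local homomorphism.**  `ch` is a character on unitary elements near one of a topological
division ring with involution, and the differences of its values at the two unitary elements
attached to `r` near a non symmetric scalar `κ` are locally constant. Then there is a function
`Psi` on `D` which is additive near one and which satisfies `Psi g = ch (g* g⁻¹)` for all `g`
near one which commute with `g*`. The domain on which nearness is measured is an abstract filter,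
so that conditions at the real places are allowed.
-/

open Filter Topology
open Vale.Agent.P011.H439

set_option linter.unusedSectionVars false

namespace Vale.Agent.P011.H182.Odd

section defs

variable {K D E : Type*} [Field K] [StarRing K] [DivisionRing D] [StarRing D] [Algebra K D]

/-- The unitary element attached to `a` with `a + a* = t y y*`. -/
def ua (t : K) (y a : D) : D := 1 - star y * (algebraMap K D t * a⁻¹) * y

/-- A representation `s = t y y*` with `t` and `y` in given sets. -/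
def Rp (T Y : Set D) (s : D) (p : K × D) : Prop :=
  star p.1 = p.1 ∧ p.1 ≠ 0 ∧ algebraMap K D p.1 ∈ T ∧ p.2 ∈ Y ∧
    s = algebraMap K D p.1 * (p.2 * star p.2)

/-- Local constancy near the scalar `κ`. -/
structure LCd [TopologicalSpace D] [AddCommGroup E] (ch : D → E) (κ : K) (C : D → E) : Prop where
  ne : star κ ≠ κ
  loc : ∀ᶠ x : D × D × D in 𝓝 (algebraMap K D κ, 0, 1), ∀ a : D, a ≠ 0 →
    a + star a = x.2.1 * star x.2.1 → a * x.1 + star (a * x.1) = x.2.2 * star x.2.2 →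
    ch (1 - star x.2.2 * (a * x.1)⁻¹ * x.2.2) - ch (1 - star x.2.1 * a⁻¹ * x.2.1) = C x.1
  ex : ∀ᶠ r in 𝓝 (algebraMap K D κ), ∃ a : D, a ≠ 0 ∧ a + star a = 0 ∧
    a * r + star (a * r) = 1

/-- Local constancy, with explicit neighbourhoods. -/
structure Loc [AddCommGroup E] (ch : D → E) (C : D → E) (R Y0 Y1 : Set D) : Prop where
  z0 : (0 : D) ∈ Y0
  z1 : (1 : D) ∈ Y1
  ne : ∀ r ∈ R, r ≠ 0
  ns : ∀ r ∈ R, r - star r ≠ 0
  loc : ∀ r ∈ R, ∀ w1 ∈ Y0, ∀ w2 ∈ Y1, ∀ a : D, a ≠ 0 → a + star a = w1 * star w1 →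
    a * r + star (a * r) = w2 * star w2 →
    ch (1 - star w2 * (a * r)⁻¹ * w2) - ch (1 - star w1 * a⁻¹ * w1) = C r
  ex : ∀ r ∈ R, ∃ a : D, a ≠ 0 ∧ a + star a = 0 ∧ a * r + star (a * r) = 1

end defs

section nbhd

variable {K D E : Type*} [Field K] [StarRing K] [DivisionRing D] [StarRing D] [Algebra K D]
  [TopologicalSpace D] [IsTopologicalRing D] [ContinuousStar D] [T1Space D] [AddCommGroup E]
  {ch C : D → E} {κ : K} (hst : ∀ c : K, star (algebraMap K D c) = algebraMap K D (star c))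

include hst

theorem LCd.nbhd (h : LCd ch κ C) :
    ∃ R ∈ 𝓝 (algebraMap K D κ), ∃ Y0 ∈ 𝓝 (0 : D), ∃ Y1 ∈ 𝓝 (1 : D), Loc ch C R Y0 Y1 := by
  have h1 := h.loc
  rw [nhds_prod_eq, nhds_prod_eq] at h1
  obtain ⟨R, hR, Y, hY, hRY⟩ := mem_prod_iff.mp h1
  obtain ⟨Y0, hY0, Y1, hY1, hYY⟩ := mem_prod_iff.mp hY
  have hκ : algebraMap K D κ ≠ 0 := by
    intro h0
    have h2 : κ = 0 := (map_eq_zero _).mp h0
    exact h.ne (by rw [h2, star_zero])
  have hR2 : {r : D | r ≠ 0} ∈ 𝓝 (algebraMap K D κ) := isOpen_ne.mem_nhds hκ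
  have hκ2 : algebraMap K D κ - star (algebraMap K D κ) ≠ 0 := by
    rw [hst, ← map_sub]
    refine (_root_.map_ne_zero _).mpr ?_
    exact fun h0 => h.ne (sub_eq_zero.mp h0).symm
  have hR3 : {r : D | r - star r ≠ 0} ∈ 𝓝 (algebraMap K D κ) := by
    have h3 : Tendsto (fun r : D => r - star r) (𝓝 (algebraMap K D κ))
        (𝓝 (algebraMap K D κ - star (algebraMap K D κ))) :=
      (continuous_id.sub continuous_star).tendsto _
    exact h3 (isOpen_ne.mem_nhds hκ2)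
  refine ⟨R ∩ {r | ∃ a : D, a ≠ 0 ∧ a + star a = 0 ∧ a * r + star (a * r) = 1} ∩
    ({r | r ≠ 0} ∩ {r | r - star r ≠ 0}),
    inter_mem (inter_mem hR h.ex) (inter_mem hR2 hR3), Y0, hY0, Y1, hY1, ?_⟩
  refine ⟨mem_of_mem_nhds hY0, mem_of_mem_nhds hY1, fun r hr => hr.2.1, fun r hr => hr.2.2, ?_,
    fun r hr => hr.1.2⟩
  intro r hr w1 hw1 w2 hw2 a ha h3 h4
  have h5 : (r, w1, w2) ∈ R ×ˢ Y := Set.mk_mem_prod hr.1.1 (hYY (Set.mk_mem_prod hw1 hw2))
  exact hRY h5 a ha h3 h4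

end nbhd

section alg

variable {K D E : Type*} [Field K] [StarRing K] [DivisionRing D] [StarRing D] [Algebra K D]
  [AddCommGroup E] {ch C : D → E} {R Y0 Y1 : Set D}

/-- The values at the trivial column. -/
theorem Loc.base (h : Loc ch C R Y0 Y1) (h1 : ch 1 = 0) {r a : D} (hr : r ∈ R) (ha : a ≠ 0)
    (h2 : a + star a = 0) (h3 : a * r + star (a * r) = 1) : ch (1 - (a * r)⁻¹) = C r := by
  have h4 := h.loc r hr 0 h.z0 1 h.z1 a ha (by rw [h2, zero_mul]) (by rw [h3, star_one, mul_one])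
  simpa [h1] using h4

variable (hst : ∀ c : K, star (algebraMap K D c) = algebraMap K D (star c))

include hst

theorem Loc.scale (h : Loc ch C R Y0 Y1) (h1 : ch 1 = 0) {r : D} {l : K} (hl : star l = l)
    (hr : r ∈ R) (hrl : r * algebraMap K D l ∈ R) : C (r * algebraMap K D l) = C r := by
  obtain ⟨a, ha, h2, h3⟩ := h.ex r hr
  have hl0 : algebraMap K D l ≠ 0 := fun h0 => h.ne _ hrl (by rw [h0, mul_zero])
  have hi : algebraMap K D l⁻¹ * algebraMap K D l = 1 := by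
    rw [← map_mul, inv_mul_cancel₀ (fun h0 => hl0 (by rw [h0, map_zero])), map_one]
  have hli : star (algebraMap K D l⁻¹) = algebraMap K D l⁻¹ := by
    rw [hst, star_inv₀, hl]
  have hc : ∀ x : D, x * algebraMap K D l⁻¹ = algebraMap K D l⁻¹ * x :=
    fun x => (Algebra.commutes _ _).symm
  have e1 : algebraMap K D l⁻¹ * a * (r * algebraMap K D l) = a * r := by
    rw [← Algebra.commutes l r, ← mul_assoc, mul_assoc _ a, ← Algebra.commutes l a, ← mul_assoc,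
      hi, one_mul]
  have e2 : algebraMap K D l⁻¹ * a ≠ 0 := by
    refine mul_ne_zero ?_ ha
    intro h0
    rw [h0, zero_mul] at hi
    exact zero_ne_one hi
  have e3 : algebraMap K D l⁻¹ * a + star (algebraMap K D l⁻¹ * a) = 0 := by
    rw [star_mul, hli, hc, ← mul_add, h2, mul_zero]
  rw [← h.base h1 hr ha h2 h3, ← h.base h1 hrl e2 e3 (by rw [e1, h3]), e1]

/-- Local constancy for a representation of `b` and of `b ρ`. -/
theorem Loc.rep (h : Loc ch C R Y0 Y1) {T : Set D} {b ρ : D} (hb : b ≠ 0) {p q : K × D}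
    (hp : Rp T Y0 (b + star b) p) (hq : Rp T Y1 (b * ρ + star (b * ρ)) q)
    (hr : ρ * algebraMap K D (p.1 * q.1⁻¹) ∈ R) :
    ch (ua q.1 q.2 (b * ρ)) - ch (ua p.1 p.2 b) = C (ρ * algebraMap K D (p.1 * q.1⁻¹)) := by
  obtain ⟨t1, y1⟩ := p
  obtain ⟨t2, y2⟩ := q
  obtain ⟨hp1, hp2, -, hp4, hp5⟩ := hp
  obtain ⟨hq1, hq2, -, hq4, hq5⟩ := hq
  simp only at hp1 hp2 hp4 hp5 hq1 hq2 hq4 hq5 hr ⊢
  have hc : ∀ (l : K) (x : D), x * algebraMap K D l = algebraMap K D l * x :=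
    fun l x => (Algebra.commutes _ _).symm
  have hinv : ∀ l : K, star l = l → star (algebraMap K D l⁻¹) = algebraMap K D l⁻¹ := by
    intro l hl; rw [hst, star_inv₀, hl]
  have hcan : ∀ l : K, l ≠ 0 → ∀ x : D, algebraMap K D l⁻¹ * (algebraMap K D l * x) = x := by
    intro l hl x
    rw [← mul_assoc, ← map_mul, inv_mul_cancel₀ hl, map_one, one_mul]
  have e1 : algebraMap K D t1⁻¹ * b ≠ 0 :=
    mul_ne_zero ((_root_.map_ne_zero _).mpr (inv_ne_zero hp2)) hb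
  have e2 : algebraMap K D t1⁻¹ * b + star (algebraMap K D t1⁻¹ * b) = y1 * star y1 := by
    rw [star_mul, hinv t1 hp1, hc, ← mul_add, hp5, hcan t1 hp2]
  have e3 : algebraMap K D t1⁻¹ * b * (ρ * algebraMap K D (t1 * t2⁻¹)) =
      algebraMap K D t2⁻¹ * (b * ρ) := by
    rw [hc (t1 * t2⁻¹) ρ, ← mul_assoc, mul_assoc (algebraMap K D t1⁻¹) b, hc (t1 * t2⁻¹) b,
      ← mul_assoc, ← map_mul]
    rw [show t1⁻¹ * (t1 * t2⁻¹) = t2⁻¹ by field_simp]
    rw [mul_assoc]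
  have e4 : algebraMap K D t2⁻¹ * (b * ρ) + star (algebraMap K D t2⁻¹ * (b * ρ)) =
      y2 * star y2 := by
    rw [star_mul (algebraMap K D t2⁻¹), hinv t2 hq1, hc, ← mul_add, hq5, hcan t2 hq2]
  have h5 := h.loc _ hr y1 hp4 y2 hq4 (algebraMap K D t1⁻¹ * b) e1 e2 (by rw [e3, e4])
  rw [e3] at h5
  have e5 : ∀ (t : K), t ≠ 0 → ∀ x : D, (algebraMap K D t⁻¹ * x)⁻¹ = algebraMap K D t * x⁻¹ := by
    intro t _ x
    rw [mul_inv_rev, map_inv₀, inv_inv, hc]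
  rw [e5 t1 hp2, e5 t2 hq2] at h5
  exact h5

omit hst in
/-- The constant at elements which commute with their adjoint. -/
theorem Loc.comm (h : Loc ch C R Y0 Y1) (h1 : ch 1 = 0) {r : D} (hr : r ∈ R)
    (hc : Commute r (star r)) : C r = ch (r⁻¹ * star r) := by
  have hr0 := h.ne r hr
  have hs0 := h.ns r hr
  have hcs : Commute (r - star r) r := (Commute.refl r).sub_left hc.symm
  have e1 : (r - star r)⁻¹ + star (r - star r)⁻¹ = 0 := by
    rw [star_inv₀, star_sub, star_star, ← neg_sub r (star r), inv_neg, add_neg_cancel]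
  have e2 : (r - star r)⁻¹ * r + star ((r - star r)⁻¹ * r) = 1 := by
    have h3 : star (r - star r)⁻¹ = -(r - star r)⁻¹ := by
      rw [eq_neg_iff_add_eq_zero, add_comm]; exact e1
    have h4 : Commute (r - star r) (star r) := (hc.sub_left (Commute.refl _))
    rw [star_mul, h3, mul_neg, h4.inv_left₀.symm.eq, ← sub_eq_add_neg, ← mul_sub,
      inv_mul_cancel₀ hs0]
  rw [← h.base h1 hr (inv_ne_zero hs0) e1 e2, mul_inv_rev, inv_inv, mul_sub,
    inv_mul_cancel₀ hr0, sub_sub_cancel]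

end alg

section frame

variable {K D E : Type*} [Field K] [StarRing K] [DivisionRing D] [StarRing D] [Algebra K D]
  [AddCommGroup E]

open Classical in
/-- The value at a chosen representation. -/
noncomputable def Phi (K : Type*) {D E : Type*} [Field K] [StarRing K] [DivisionRing D]
    [StarRing D] [Algebra K D] [AddCommGroup E] (ch : D → E) (T Y : Set D) (a : D) : E :=
  if h : ∃ p : K × D, Rp T Y (a + star a) p then ch (ua h.choose.1 h.choose.2 a) else 0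

theorem Phi_spec (ch : D → E) {T Y : Set D} {a : D}
    (h : ∃ p : K × D, Rp T Y (a + star a) p) :
    ∃ p : K × D, Rp T Y (a + star a) p ∧ Phi K ch T Y a = ch (ua p.1 p.2 a) := by
  refine ⟨h.choose, h.choose_spec, ?_⟩
  unfold Phi
  rw [dif_pos h]

/-- The frame of neighbourhoods. -/
structure Fr (K : Type*) {D E : Type*} [Field K] [StarRing K] [DivisionRing D] [StarRing D]
    [Algebra K D] [AddCommGroup E] (ch C : D → E) (R Y0 Y1 T G Kp Va Dom Dom1 : Set D) :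
    Prop where
  loc : Loc ch C R Y0 Y1
  scal : ∀ a : K, a * star a = 1 → ch (algebraMap K D a) = 0
  tR : ∀ g ∈ G, ∀ k ∈ Kp, ∀ t ∈ T, ∀ t' ∈ T, g⁻¹ * k * (t * t'⁻¹) ∈ R
  g1 : (1 : D) ∈ G
  t1 : (1 : D) ∈ T
  ne : ∀ a ∈ Va, a ≠ 0
  r0 : ∀ a ∈ Va, a ∈ Dom → ∃ p : K × D, Rp T Y0 (a + star a) p
  r1 : ∀ a ∈ Va, ∀ k : K, algebraMap K D k ∈ Kp → a * algebraMap K D k ∈ Dom1 →
    ∃ p : K × D, Rp T Y1 (a * algebraMap K D k + star (a * algebraMap K D k)) p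

variable {ch C : D → E} {R Y0 Y1 T G Kp Va Dom Dom1 : Set D}

theorem Fr.one (h : Fr K ch C R Y0 Y1 T G Kp Va Dom Dom1) : ch 1 = 0 := by
  have := h.scal 1 (by rw [star_one, mul_one])
  rwa [map_one] at this

variable (hst : ∀ c : K, star (algebraMap K D c) = algebraMap K D (star c))

include hst

/-- The constant vanishes on scalars. -/
theorem Fr.czero (h : Fr K ch C R Y0 Y1 T G Kp Va Dom Dom1) {k : K} (hk : algebraMap K D k ∈ R) :
    C (algebraMap K D k) = 0 := by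
  have hk0 : k ≠ 0 := fun h0 => h.loc.ne _ hk (by rw [h0, map_zero])
  have hs0 : star k ≠ 0 := star_ne_zero.mpr hk0
  rw [h.loc.comm h.one hk (by rw [hst]; exact Algebra.commutes _ _), hst, ← map_inv₀, ← map_mul]
  refine h.scal _ ?_
  rw [star_mul', star_star, star_inv₀]
  field_simp

/-- The basic step. -/
theorem Fr.step (h : Fr K ch C R Y0 Y1 T G Kp Va Dom Dom1) {a g : D} {k : K} (ha : a ∈ Va)
    (had : a ∈ Dom) (hg : g ∈ G) (hag : a * g ∈ Va) (hagd : a * g ∈ Dom)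
    (hk : algebraMap K D k ∈ Kp) (hakd : a * algebraMap K D k ∈ Dom1) :
    Phi K ch T Y0 (a * g) - Phi K ch T Y0 a = -C (g⁻¹ * algebraMap K D k) := by
  have ha0 := h.ne a ha
  have hg0 : g ≠ 0 := right_ne_zero_of_mul (h.ne _ hag)
  obtain ⟨p1, hp1, e1⟩ := Phi_spec ch (h.r0 a ha had)
  obtain ⟨p3, hp3, e3⟩ := Phi_spec ch (h.r0 _ hag hagd)
  obtain ⟨p2, hp2⟩ := h.r1 a ha k hk hakd
  have hm : ∀ t t' : K, algebraMap K D (t * t'⁻¹) = algebraMap K D t * (algebraMap K D t')⁻¹ :=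
    fun t t' => by rw [map_mul, map_inv₀]
  -- first application
  have hr1 : algebraMap K D k * algebraMap K D (p1.1 * p2.1⁻¹) ∈ R := by
    have := h.tR 1 h.g1 _ hk _ hp1.2.2.1 _ hp2.2.2.1
    rwa [inv_one, one_mul, ← hm] at this
  have h1 := h.loc.rep hst ha0 hp1 hp2 hr1
  rw [← map_mul] at h1 hr1
  rw [h.czero hst hr1, sub_eq_zero] at h1
  -- second application
  have e5 : a * g * (g⁻¹ * algebraMap K D k) = a * algebraMap K D k := by
    rw [mul_assoc, mul_inv_cancel_left₀ hg0]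
  have hr3 : g⁻¹ * algebraMap K D k * algebraMap K D (p3.1 * p2.1⁻¹) ∈ R := by
    have := h.tR g hg _ hk _ hp3.2.2.1 _ hp2.2.2.1
    rwa [← hm] at this
  have hr4 : g⁻¹ * algebraMap K D k ∈ R := by
    have := h.tR g hg _ hk _ h.t1 _ h.t1
    rwa [inv_one, mul_one, mul_one] at this
  have h3 := h.loc.rep hst (h.ne _ hag) hp3 (by rw [e5]; exact hp2) hr3
  have hl : star (p3.1 * p2.1⁻¹) = p3.1 * p2.1⁻¹ := by
    rw [star_mul', star_inv₀, hp3.1, hp2.1]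
  rw [h.loc.scale hst h.one hl hr4 hr3, e5] at h3
  rw [e3, e1, ← h3, ← h1]
  abel

end frame

section chr

variable {K D E : Type*} [Field K] [StarRing K] [DivisionRing D] [StarRing D] [Algebra K D]
  [TopologicalSpace D] [AddCommGroup E] {ch : D → E} {W : Set D}

theorem mul_star_of_comm {g : D} (hg : g ≠ 0) (hcomm : Commute g (star g)) :
    g * (star g)⁻¹ * star (g * (star g)⁻¹) = 1 := by
  have hsg : star g ≠ 0 := star_ne_zero.mpr hg
  have h1 : Commute g (star g)⁻¹ := hcomm.inv_right₀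
  rw [star_mul, star_inv₀, star_star, h1.eq, mul_assoc, mul_inv_cancel_left₀ hg,
    inv_mul_cancel₀ hsg]

theorem ch_one (hc : Chr K W ch) : (1 : D) ∈ W ∧ ch 1 = 0 := by
  have := hc.scal 1 (by rw [star_one, mul_one])
  rwa [map_one] at this

theorem ch_comm (hst : ∀ c : K, star (algebraMap K D c) = algebraMap K D (star c))
    (hc : Chr K W ch) {g : D} (hg : g ≠ 0) (hcomm : Commute g (star g))
    (hW : g * (star g)⁻¹ ∈ W) {k : K} (hk : k ≠ 0) :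
    ch ((g⁻¹ * algebraMap K D k)⁻¹ * star (g⁻¹ * algebraMap K D k)) =
      -ch (star g * g⁻¹) := by
  have hsg : star g ≠ 0 := star_ne_zero.mpr hg
  have hks : star k ≠ 0 := star_ne_zero.mpr hk
  have hcc : ∀ (l : K) (x : D), x * algebraMap K D l = algebraMap K D l * x :=
    fun l x => (Algebra.commutes l x).symm
  have e1 : (g⁻¹ * algebraMap K D k)⁻¹ * star (g⁻¹ * algebraMap K D k) =
      algebraMap K D (k⁻¹ * star k) * (g * (star g)⁻¹) := by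
    rw [star_mul, hst, star_inv₀, mul_inv_rev, inv_inv, ← map_inv₀, mul_assoc, ← mul_assoc g,
      hcc (star k) g, ← mul_assoc, ← mul_assoc, map_mul, mul_assoc, mul_assoc]
  have hs := hc.scal (k⁻¹ * star k) (by
    rw [star_mul', star_inv₀, star_star]
    field_simp)
  rw [e1, hc.map _ hs.1 _ hW, hs.2, zero_add]
  have h2 := mul_star_of_comm hg hcomm
  have e2 : star (g * (star g)⁻¹) = star g * g⁻¹ := by
    rw [star_mul, star_inv₀, star_star]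
    exact hcomm.inv_left₀.eq
  have h3 := hc.map _ hW _ (hc.inv _ hW)
  rw [h2, (ch_one hc).2, e2] at h3
  exact eq_neg_of_add_eq_zero_left h3.symm

end chr

section main

variable {K D E : Type*} [Field K] [StarRing K] [DivisionRing D] [StarRing D] [Algebra K D]
  [TopologicalSpace D] [IsTopologicalRing D] [ContinuousInv₀ D] [ContinuousStar D] [T1Space D]
  [AddCommGroup E] {ch C : D → E} {κ : K} {W : Set D}

/-- The elements `t y y*`. -/
def Sy (K : Type*) {D : Type*} [Field K] [StarRing K] [DivisionRing D] [StarRing D] [Algebra K D]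
    (s : D) : Prop :=
  ∃ (t : K) (y : D), star t = t ∧ t ≠ 0 ∧ y ≠ 0 ∧ s = algebraMap K D t * (y * star y)

/-- **The local homomorphism**, with a condition on the elements and one on their multiples by
scalars near `κ`. -/
theorem exists_psi_two (hst : ∀ c : K, star (algebraMap K D c) = algebraMap K D (star c))
    (hc : Chr K W ch) (hL : LCd ch κ C)
    (hrep0 : ∀ V ∈ 𝓝 (0 : D), ∀ V1 ∈ 𝓝 (1 : D), ∃ V' ∈ 𝓝 (0 : D), ∀ s ∈ V', Sy K s →
      ∃ (t : K) (y : D), star t = t ∧ t ≠ 0 ∧ algebraMap K D t ∈ V1 ∧ y ∈ V ∧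
        s = algebraMap K D t * (y * star y))
    (hrep1 : ∀ V ∈ 𝓝 (1 : D), ∃ V' ∈ 𝓝 (1 : D), ∀ s ∈ V', Sy K s →
      ∃ (t : K) (y : D), star t = t ∧ t ≠ 0 ∧ algebraMap K D t ∈ V ∧ y ∈ V ∧
        s = algebraMap K D t * (y * star y))
    {F : Filter D} (hF : F ≤ 𝓝 1) (hFF : Tendsto (fun p : D × D => p.1 * p.2) (F ×ˢ F) F)
    {Dom Dom1 : Set D} (hd0 : ∀ z ∈ Dom, z + star z = 0 ∨ Sy K (z + star z))
    (hd0' : ∀ z ∈ Dom1, z + star z = 0 ∨ Sy K (z + star z))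
    (hd1 : ∀ z1 ∈ Dom, ∀ z2 ∈ Dom, ∀ V ∈ 𝓝 (algebraMap K D κ), ∃ k : K, algebraMap K D k ∈ V ∧
      z1 * algebraMap K D k ∈ Dom1 ∧ z2 * algebraMap K D k ∈ Dom1)
    (hd2 : ∀ V ∈ 𝓝 (algebraMap K D (κ - star κ)⁻¹), ∃ a ∈ V, a ∈ Dom ∧
      ∀ᶠ g in F, a * g ∈ Dom) :
    ∃ Psi : D → E, (∀ᶠ p in F ×ˢ F, Psi (p.1 * p.2) = Psi p.1 + Psi p.2) ∧
      ∀ᶠ g in F, Commute g (star g) → Psi g = ch (star g * g⁻¹) := by
  obtain ⟨R, hR, Y0, hY0, Y1, hY1, hloc⟩ := hL.nbhd hst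
  have hκ0 : κ ≠ 0 := by
    intro h0
    exact hL.ne (by rw [h0, star_zero])
  have hκs : κ - star κ ≠ 0 := fun h0 => hL.ne (sub_eq_zero.mp h0).symm
  -- the neighbourhoods of `1`, `κ`, `1`, `1`
  have hcont : Tendsto (fun x : (D × D) × (D × D) => x.1.1⁻¹ * x.1.2 * (x.2.1 * x.2.2⁻¹))
      ((𝓝 1 ×ˢ 𝓝 (algebraMap K D κ)) ×ˢ (𝓝 1 ×ˢ 𝓝 1)) (𝓝 (algebraMap K D κ)) := by
    have h1 : Tendsto (fun x : (D × D) × (D × D) => x.1.1⁻¹)
        ((𝓝 1 ×ˢ 𝓝 (algebraMap K D κ)) ×ˢ (𝓝 1 ×ˢ 𝓝 1)) (𝓝 (1 : D)⁻¹) :=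
      (tendsto_fst.comp tendsto_fst).inv₀ one_ne_zero
    have h2 : Tendsto (fun x : (D × D) × (D × D) => x.1.2)
        ((𝓝 1 ×ˢ 𝓝 (algebraMap K D κ)) ×ˢ (𝓝 1 ×ˢ 𝓝 1)) (𝓝 (algebraMap K D κ)) :=
      tendsto_snd.comp tendsto_fst
    have h3 : Tendsto (fun x : (D × D) × (D × D) => x.2.1)
        ((𝓝 1 ×ˢ 𝓝 (algebraMap K D κ)) ×ˢ (𝓝 1 ×ˢ 𝓝 1)) (𝓝 (1 : D)) :=
      tendsto_fst.comp tendsto_snd
    have h4 : Tendsto (fun x : (D × D) × (D × D) => x.2.2⁻¹)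
        ((𝓝 1 ×ˢ 𝓝 (algebraMap K D κ)) ×ˢ (𝓝 1 ×ˢ 𝓝 1)) (𝓝 (1 : D)⁻¹) :=
      (tendsto_snd.comp tendsto_snd).inv₀ one_ne_zero
    have h5 := (h1.mul h2).mul (h3.mul h4)
    simpa using h5
  obtain ⟨P, hP, Q, hQ, hPQ⟩ := mem_prod_iff.mp (hcont hR)
  obtain ⟨G0, hG0, Kp0, hKp0, hGK⟩ := mem_prod_iff.mp hP
  obtain ⟨Ta, hTa, Tb, hTb, hTT⟩ := mem_prod_iff.mp hQ
  have hTm : Ta ∩ Tb ∈ 𝓝 (1 : D) := inter_mem hTa hTb
  have htR : ∀ g ∈ G0, ∀ k ∈ Kp0, ∀ t ∈ Ta ∩ Tb, ∀ t' ∈ Ta ∩ Tb, g⁻¹ * k * (t * t'⁻¹) ∈ R := by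
    intro g hg k hk t ht t' ht'
    have h1 : ((g, k), (t, t')) ∈ P ×ˢ Q :=
      Set.mk_mem_prod (hGK (Set.mk_mem_prod hg hk)) (hTT (Set.mk_mem_prod ht.1 ht'.2))
    exact hPQ h1
  obtain ⟨S0, hS0, hS0'⟩ := hrep0 Y0 hY0 (Ta ∩ Tb) hTm
  obtain ⟨S1, hS1, hS1'⟩ := hrep1 (Y1 ∩ (Ta ∩ Tb)) (inter_mem hY1 hTm)
  -- the base point
  have ha0 : algebraMap K D (κ - star κ)⁻¹ ≠ 0 :=
    (_root_.map_ne_zero _).mpr (inv_ne_zero hκs)
  have ha1 : algebraMap K D (κ - star κ)⁻¹ + star (algebraMap K D (κ - star κ)⁻¹) = 0 := by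
    rw [hst, ← map_add, star_inv₀, star_sub, star_star, ← neg_sub κ (star κ), inv_neg,
      add_neg_cancel, map_zero]
  have ha2 : algebraMap K D (κ - star κ)⁻¹ * algebraMap K D κ +
      star (algebraMap K D (κ - star κ)⁻¹ * algebraMap K D κ) = 1 := by
    rw [← map_mul, hst, ← map_add, star_mul', star_inv₀, star_sub, star_star,
      ← neg_sub κ (star κ), inv_neg, neg_mul, ← sub_eq_add_neg, ← mul_sub,
      inv_mul_cancel₀ hκs, map_one]
  have hV1 : {a : D | a + star a ∈ S0} ∈ 𝓝 (algebraMap K D (κ - star κ)⁻¹) := by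
    have h1 : Tendsto (fun a : D => a + star a) (𝓝 (algebraMap K D (κ - star κ)⁻¹))
        (𝓝 (algebraMap K D (κ - star κ)⁻¹ + star (algebraMap K D (κ - star κ)⁻¹))) :=
      (continuous_id.add continuous_star).tendsto _
    rw [ha1] at h1
    exact h1 hS0
  have hV2 : Tendsto (fun x : D × D => x.1 * x.2 + star (x.1 * x.2))
      (𝓝 (algebraMap K D (κ - star κ)⁻¹) ×ˢ 𝓝 (algebraMap K D κ)) (𝓝 1) := by
    have h1 : Continuous fun x : D × D => x.1 * x.2 + star (x.1 * x.2) :=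
      (continuous_fst.mul continuous_snd).add (continuous_fst.mul continuous_snd).star
    have h2 := h1.tendsto (algebraMap K D (κ - star κ)⁻¹, algebraMap K D κ)
    rw [nhds_prod_eq] at h2
    simp only at h2
    rwa [ha2] at h2
  obtain ⟨Vb, hVb, Kp1, hKp1, hVK⟩ := mem_prod_iff.mp
    (hV2 (inter_mem hS1 (isOpen_ne.mem_nhds (one_ne_zero : (1 : D) ≠ 0))))
  have hVa : {a : D | a + star a ∈ S0} ∩ Vb ∩ {a | a ≠ 0} ∈
      𝓝 (algebraMap K D (κ - star κ)⁻¹) :=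
    inter_mem (inter_mem hV1 hVb) (isOpen_ne.mem_nhds ha0)
  have hfr : Fr K ch C R Y0 Y1 (Ta ∩ Tb) G0 (Kp0 ∩ Kp1)
      ({a : D | a + star a ∈ S0} ∩ Vb ∩ {a | a ≠ 0}) Dom Dom1 := by
    refine ⟨hloc, fun a ha => (hc.scal a ha).2, fun g hg k hk => htR g hg k hk.1,
      mem_of_mem_nhds hG0, mem_of_mem_nhds hTm, fun a ha => ha.2, ?_, ?_⟩
    · intro a ha had
      rcases hd0 a had with h0 | h0
      · refine ⟨(1, 0), star_one _, one_ne_zero, ?_, hloc.z0, ?_⟩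
        · rw [map_one]; exact mem_of_mem_nhds hTm
        · rw [h0]; simp
      · obtain ⟨t, y, h1, h2, h3, h4, h5⟩ := hS0' _ ha.1.1 h0
        exact ⟨(t, y), h1, h2, h3, h4, h5⟩
    · intro a ha k hk hakd
      have h1 : a * algebraMap K D k + star (a * algebraMap K D k) ∈ S1 ∩ {y | y ≠ 1 - 1} := by
        have h2 : (a, algebraMap K D k) ∈ Vb ×ˢ Kp1 := Set.mk_mem_prod ha.1.2 hk.2
        have h3 := hVK h2
        simpa using h3
      rcases hd0' _ hakd with h0 | h0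
      · exact absurd h0 (by simpa using h1.2)
      · obtain ⟨t, y, h2, h3, h4, h5, h6⟩ := hS1' _ h1.1 h0
        exact ⟨(t, y), h2, h3, h4.2, h5.1, h6⟩
  -- the two shrinkings
  have hmul : Tendsto (fun x : D × D => x.1 * x.2)
      (𝓝 (algebraMap K D (κ - star κ)⁻¹) ×ˢ 𝓝 1) (𝓝 (algebraMap K D (κ - star κ)⁻¹)) := by
    have h2 := (continuous_mul (M := D)).tendsto (algebraMap K D (κ - star κ)⁻¹, (1 : D))
    rwa [nhds_prod_eq, mul_one] at h2
  obtain ⟨V1, hV1', G1, hG1, hVG1⟩ := mem_prod_iff.mp (hmul hVa)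
  obtain ⟨V2, hV2', G2, hG2, hVG2⟩ := mem_prod_iff.mp (hmul (inter_mem hV1' hVa))
  have hindep : ∀ a ∈ V1, a ∈ {a : D | a + star a ∈ S0} ∩ Vb ∩ {a | a ≠ 0} → a ∈ Dom →
      ∀ b ∈ V1, b ∈ {a : D | a + star a ∈ S0} ∩ Vb ∩ {a | a ≠ 0} → b ∈ Dom →
      ∀ g ∈ G1 ∩ G0, a * g ∈ Dom → b * g ∈ Dom →
      Phi K ch (Ta ∩ Tb) Y0 (a * g) - Phi K ch (Ta ∩ Tb) Y0 a =
        Phi K ch (Ta ∩ Tb) Y0 (b * g) - Phi K ch (Ta ∩ Tb) Y0 b := by
    intro a ha ha' had b hb hb' hbd g hg hagd hbgd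
    obtain ⟨k, hk, hak, hbk⟩ := hd1 a had b hbd _ (inter_mem hKp0 hKp1)
    rw [hfr.step hst ha' had hg.2 (hVG1 (Set.mk_mem_prod ha hg.1)) hagd hk hak,
      hfr.step hst hb' hbd hg.2 (hVG1 (Set.mk_mem_prod hb hg.1)) hbgd hk hbk]
  obtain ⟨a, ha, had, haF⟩ := hd2 _ (inter_mem hV2' (inter_mem hV1' hVa))
  have hG : G1 ∩ G0 ∩ G2 ∈ 𝓝 (1 : D) := inter_mem (inter_mem hG1 hG0) hG2
  have hmemG : ∀ᶠ g in F, g ∈ G1 ∩ G0 ∩ G2 := hF hG
  have hag : ∀ g ∈ G1 ∩ G0 ∩ G2, a * g ∈ V1 ∩ ({a : D | a + star a ∈ S0} ∩ Vb ∩ {a | a ≠ 0}) :=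
    fun g hg => hVG2 (Set.mk_mem_prod ha.1 hg.2)
  refine ⟨fun g => Phi K ch (Ta ∩ Tb) Y0 (a * g) - Phi K ch (Ta ∩ Tb) Y0 a, ?_, ?_⟩
  · have h1 : ∀ᶠ p in F ×ˢ F, p.1 ∈ G1 ∩ G0 ∩ G2 ∧ a * p.1 ∈ Dom :=
      tendsto_fst.eventually (hmemG.and haF)
    have h2 : ∀ᶠ p in F ×ˢ F, p.2 ∈ G1 ∩ G0 ∩ G2 ∧ a * p.2 ∈ Dom :=
      tendsto_snd.eventually (hmemG.and haF)
    filter_upwards [h1, h2, hFF.eventually haF] with p hp1 hp2 hp3
    have h4 : a * p.1 * p.2 ∈ Dom := by rw [mul_assoc]; exact hp3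
    have h5 := hindep (a * p.1) (hag _ hp1.1).1 (hag _ hp1.1).2 hp1.2 a ha.2.1 ha.2.2 had p.2
      hp2.1.1 h4 hp2.2
    rw [← h5, mul_assoc]
    abel
  · have h1 : ∀ᶠ g in 𝓝 (1 : D), (g * (star g)⁻¹) * star (g * (star g)⁻¹) = 1 →
        g * (star g)⁻¹ ∈ W := by
      have h2 : Tendsto (fun g : D => g * (star g)⁻¹) (𝓝 1) (𝓝 1) := by
        have h3 : Tendsto (fun g : D => star g) (𝓝 1) (𝓝 (star (1 : D))) :=
          continuous_star.tendsto _
        rw [star_one] at h3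
        have h4 := tendsto_id.mul (h3.inv₀ one_ne_zero)
        simpa using h4
      exact h2.eventually hc.near
    filter_upwards [hmemG, haF, hF h1] with g hg hgd hgW hcomm
    obtain ⟨k, hk, hak, -⟩ := hd1 a had a had _ (inter_mem hKp0 hKp1)
    have h2 := hfr.step hst ha.2.2 had hg.1.2 (hag g hg).2 hgd hk hak
    have hg0 : g ≠ 0 := right_ne_zero_of_mul (hfr.ne _ (hag g hg).2)
    have hr : g⁻¹ * algebraMap K D k ∈ R := by
      have := hfr.tR g hg.1.2 _ hk _ hfr.t1 _ hfr.t1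
      rwa [inv_one, mul_one, mul_one] at this
    have hk0 : k ≠ 0 := by
      intro h0
      exact hloc.ne _ hr (by rw [h0, map_zero, mul_zero])
    have hcc : ∀ (l : K) (x : D), Commute (algebraMap K D l) x := fun l x => Algebra.commutes l x
    have hrc : Commute (g⁻¹ * algebraMap K D k) (star (g⁻¹ * algebraMap K D k)) := by
      rw [star_mul, hst, star_inv₀]
      have h3 : Commute g⁻¹ (star g)⁻¹ := (hcomm.inv_left₀).inv_right₀
      exact ((hcc _ _).symm.mul_right h3).mul_left ((hcc _ _).mul_right (hcc _ _))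
    rw [h2, hloc.comm (ch_one hc).2 hr hrc,
      ch_comm hst hc hg0 hcomm (hgW (mul_star_of_comm hg0 hcomm)) hk0, neg_neg]

/-- **The local homomorphism**, one domain. -/
theorem exists_psi (hst : ∀ c : K, star (algebraMap K D c) = algebraMap K D (star c))
    (hc : Chr K W ch) (hL : LCd ch κ C)
    (hrep0 : ∀ V ∈ 𝓝 (0 : D), ∀ V1 ∈ 𝓝 (1 : D), ∃ V' ∈ 𝓝 (0 : D), ∀ s ∈ V', Sy K s →
      ∃ (t : K) (y : D), star t = t ∧ t ≠ 0 ∧ algebraMap K D t ∈ V1 ∧ y ∈ V ∧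
        s = algebraMap K D t * (y * star y))
    (hrep1 : ∀ V ∈ 𝓝 (1 : D), ∃ V' ∈ 𝓝 (1 : D), ∀ s ∈ V', Sy K s →
      ∃ (t : K) (y : D), star t = t ∧ t ≠ 0 ∧ algebraMap K D t ∈ V ∧ y ∈ V ∧
        s = algebraMap K D t * (y * star y))
    {F : Filter D} (hF : F ≤ 𝓝 1) (hFF : Tendsto (fun p : D × D => p.1 * p.2) (F ×ˢ F) F)
    {Dom : Set D} (hd0 : ∀ z ∈ Dom, z + star z = 0 ∨ Sy K (z + star z))
    (hd1 : ∀ z1 ∈ Dom, ∀ z2 ∈ Dom, ∀ V ∈ 𝓝 (algebraMap K D κ), ∃ k : K, algebraMap K D k ∈ V ∧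
      z1 * algebraMap K D k ∈ Dom ∧ z2 * algebraMap K D k ∈ Dom)
    (hd2 : ∀ V ∈ 𝓝 (algebraMap K D (κ - star κ)⁻¹), ∃ a ∈ V, a ∈ Dom ∧
      ∀ᶠ g in F, a * g ∈ Dom) :
    ∃ Psi : D → E, (∀ᶠ p in F ×ˢ F, Psi (p.1 * p.2) = Psi p.1 + Psi p.2) ∧
      ∀ᶠ g in F, Commute g (star g) → Psi g = ch (star g * g⁻¹) :=
  exists_psi_two hst hc hL hrep0 hrep1 hF hFF hd0 hd0 hd1 hd2

/-- **The local homomorphism**, no condition away from the topology. -/
theorem exists_psi_univ (hst : ∀ c : K, star (algebraMap K D c) = algebraMap K D (star c))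
    (hc : Chr K W ch) (hL : LCd ch κ C)
    (hrep0 : ∀ V ∈ 𝓝 (0 : D), ∀ V1 ∈ 𝓝 (1 : D), ∃ V' ∈ 𝓝 (0 : D), ∀ s ∈ V', Sy K s →
      ∃ (t : K) (y : D), star t = t ∧ t ≠ 0 ∧ algebraMap K D t ∈ V1 ∧ y ∈ V ∧
        s = algebraMap K D t * (y * star y))
    (hrep1 : ∀ V ∈ 𝓝 (1 : D), ∃ V' ∈ 𝓝 (1 : D), ∀ s ∈ V', Sy K s →
      ∃ (t : K) (y : D), star t = t ∧ t ≠ 0 ∧ algebraMap K D t ∈ V ∧ y ∈ V ∧
        s = algebraMap K D t * (y * star y))
    (hSy : ∀ s : D, star s = s → s ≠ 0 → Sy K s) :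
    ∃ Psi : D → E, (∀ᶠ p in 𝓝 (1 : D) ×ˢ 𝓝 1, Psi (p.1 * p.2) = Psi p.1 + Psi p.2) ∧
      ∀ᶠ g in 𝓝 (1 : D), Commute g (star g) → Psi g = ch (star g * g⁻¹) := by
  have hmul : Tendsto (fun p : D × D => p.1 * p.2) (𝓝 1 ×ˢ 𝓝 1) (𝓝 1) := by
    have h2 := (continuous_mul (M := D)).tendsto ((1 : D), (1 : D))
    rwa [nhds_prod_eq, mul_one] at h2
  refine exists_psi hst hc hL hrep0 hrep1 le_rfl hmul (Dom := Set.univ) ?_ ?_ ?_
  · intro z _
    by_cases h0 : z + star z = 0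
    · exact Or.inl h0
    · exact Or.inr (hSy _ (by rw [star_add, star_star, add_comm]) h0)
  · exact fun z1 _ z2 _ V hV => ⟨κ, mem_of_mem_nhds hV, Set.mem_univ _, Set.mem_univ _⟩
  · exact fun V hV => ⟨_, mem_of_mem_nhds hV, Set.mem_univ _,
      Filter.Eventually.of_forall fun _ => Set.mem_univ _⟩

/-- **The local homomorphism**, for a base point which is good for all multipliers near one. -/
theorem exists_psi_dom (hst : ∀ c : K, star (algebraMap K D c) = algebraMap K D (star c))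
    (hc : Chr K W ch) (hL : LCd ch κ C)
    (hrep0 : ∀ V ∈ 𝓝 (0 : D), ∀ V1 ∈ 𝓝 (1 : D), ∃ V' ∈ 𝓝 (0 : D), ∀ s ∈ V', Sy K s →
      ∃ (t : K) (y : D), star t = t ∧ t ≠ 0 ∧ algebraMap K D t ∈ V1 ∧ y ∈ V ∧
        s = algebraMap K D t * (y * star y))
    (hrep1 : ∀ V ∈ 𝓝 (1 : D), ∃ V' ∈ 𝓝 (1 : D), ∀ s ∈ V', Sy K s →
      ∃ (t : K) (y : D), star t = t ∧ t ≠ 0 ∧ algebraMap K D t ∈ V ∧ y ∈ V ∧
        s = algebraMap K D t * (y * star y))
    {F : Filter D} (hF : F ≤ 𝓝 1) (hF1 : pure 1 ≤ F)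
    (hFF : Tendsto (fun p : D × D => p.1 * p.2) (F ×ˢ F) F)
    (hdom : ∀ V ∈ 𝓝 (algebraMap K D (κ - star κ)⁻¹), ∃ α : K, algebraMap K D α ∈ V ∧
      ∀ᶠ g in F, Sy K (algebraMap K D α * g + star (algebraMap K D α * g)) ∧
        Sy K (algebraMap K D α * g * algebraMap K D κ +
          star (algebraMap K D α * g * algebraMap K D κ))) :
    ∃ Psi : D → E, (∀ᶠ p in F ×ˢ F, Psi (p.1 * p.2) = Psi p.1 + Psi p.2) ∧
      ∀ᶠ g in F, Commute g (star g) → Psi g = ch (star g * g⁻¹) := by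
  refine exists_psi_two hst hc hL hrep0 hrep1 hF hFF
    (Dom := {z | Sy K (z + star z) ∧
      Sy K (z * algebraMap K D κ + star (z * algebraMap K D κ))})
    (Dom1 := {z | Sy K (z + star z)}) (fun z hz => Or.inr hz.1) (fun z hz => Or.inr hz)
    (fun z1 h1 z2 h2 V hV => ⟨κ, mem_of_mem_nhds hV, h1.2, h2.2⟩) ?_
  intro V hV
  obtain ⟨α, hα, h⟩ := hdom V hV
  refine ⟨algebraMap K D α, hα, ?_, h⟩
  have h1 := mem_pure.mp (hF1 h)
  simp only [Set.mem_ofPred_eq, mul_one] at h1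
  exact h1

end main

end Vale.Agent.P011.H182.Odd
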