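import Vale.Agent.P011.H182.Odd.Psi
import Vale.Agent.P011.H616.Odd.Dom
import Vale.Agent.P011.H616.Odd.SyNF
import Vale.Agent.P011.H775.Odd.WuNF

/-!
**Number fields: the local homomorphism.**  `T` is a finite nonempty set of finite places which
split in `K`, `T₀` is a finite set of places which contains `T` and all the real places which do
not split in `K`.  A character of unitary elements close to one at `T` with locally constant
differences near `κ` gives a function which is additive close to one at `T₀`.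
-/

open Module Topology Filter NumberField IsDedekindDomain

set_option linter.style.haveILetI false
set_option linter.unusedSectionVars false

namespace Vale.Agent.P011.H182.Odd

open Vale.Agent.P011.Arith Vale.Agent.P011.Even Vale.Agent.P011.Two Vale.Agent.P011.One
  Vale.Agent.P011.H775.Top Vale.Agent.P011.H439

/-- The two definitions of `Sy` agree. -/
theorem sy_iff {K D : Type} [Field K] [StarRing K] [DivisionRing D] [StarRing D] [Algebra K D]
    {s : D} : Sy K s ↔ Vale.Agent.P011.H373.Odd.Sy K s := Iff.rfl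

section top

variable {K D : Type} [Field K] [StarRing K] [DivisionRing D] [StarRing D] [Algebra K D]
  [TopologicalSpace D] [IsTopologicalRing D] [ContinuousStar D] [T2Space D] [ContinuousInv₀ D]
  (hst : ∀ c : K, star (algebraMap K D c) = algebraMap K D (star c))

include hst

theorem rep0_of (hWU : H373.Odd.WU D) (hsp : H373.Odd.Spt K D) (hnd : H373.Odd.Nd K D) :
    ∀ V ∈ 𝓝 (0 : D), ∀ V1 ∈ 𝓝 (1 : D), ∃ V' ∈ 𝓝 (0 : D), ∀ s ∈ V', Sy K s →
      ∃ (t : K) (y : D), star t = t ∧ t ≠ 0 ∧ algebraMap K D t ∈ V1 ∧ y ∈ V ∧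
        s = algebraMap K D t * (y * star y) := by
  intro V hV V1 hV1
  obtain ⟨V', hV', h⟩ := H373.Odd.rep_zero hst hWU hsp hnd hV hV1
  refine ⟨V', hV', fun s hs h0 => ?_⟩
  obtain ⟨t, y, h1, h2, -, h3, h4, h5⟩ := h s hs h0
  exact ⟨t, y, h1, h2, h3, h4, h5⟩

theorem rep1_of (hWU : H373.Odd.WU D) (hsp : H373.Odd.Spt K D) :
    ∀ V ∈ 𝓝 (1 : D), ∃ V' ∈ 𝓝 (1 : D), ∀ s ∈ V', Sy K s →
      ∃ (t : K) (y : D), star t = t ∧ t ≠ 0 ∧ algebraMap K D t ∈ V ∧ y ∈ V ∧
        s = algebraMap K D t * (y * star y) := by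
  intro V hV
  obtain ⟨V', hV', h⟩ := H373.Odd.rep_one hst hWU hsp hV
  refine ⟨V', hV', fun s hs h0 => ?_⟩
  obtain ⟨t, y, h1, h2, -, h3, h4, h5⟩ := h s hs h0
  exact ⟨t, y, h1, h2, h3, h4, h5⟩

end top

section nf

variable {k K D : Type} [Field k] [NumberField k] [Field K] [NumberField K] [StarRing K]
  [DivisionRing D] [StarRing D] [Algebra k K] [Algebra k D] [Algebra K D] [IsScalarTower k K D]
  {d : kˣ} {s : K} {n M : ℕ}

/-- The topology of a larger set of places is finer. -/
theorem nhds_anti (B : Basis (Fin M) k D) {T T' : Finset (Pl k)} [Nonempty T] [Nonempty T']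
    (h : T ⊆ T') (x₀ : D) :
    @nhds D (topD B (av T')) x₀ ≤ @nhds D (topD B (av T)) x₀ := by
  intro O hO
  obtain ⟨ε, hε, hO⟩ := (mem_nhds_iff_nm B T).mp hO
  exact (mem_nhds_iff_nm B T').mpr ⟨ε, hε, fun x hx => hO x fun p hp => hx p (h hp)⟩

/-- Symmetric elements close to one at the real places which do not split are of the form
`t y y*`. -/
theorem sy_near_one (hS : Setting k K D d s) (hn : Odd n) (hdeg : finrank K D = n ^ 2)
    (B : Basis (Fin M) k D) (T₀ : Finset (Pl k)) [Nonempty T₀]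
    (hinf : ∀ φ : k →+* ℝ, φ d < 0 → (Sum.inr φ : Pl k) ∈ T₀) :
    ∀ᶠ z in @nhds D (topD B (av T₀)) 1, star z = z → Sy K z := by
  obtain ⟨ε, hε, h⟩ := H616.sy_nf' hS hn hdeg B (one_ne_zero : (1 : D) ≠ 0)
  have h1 : ∀ᶠ z in @nhds D (topD B (av T₀)) 1, z ≠ 0 := by
    letI := topD B (av T₀)
    have ht2 : T2Space D := t2 B (av T₀)
    exact isOpen_ne.mem_nhds one_ne_zero
  have h2 : ∀ᶠ z in @nhds D (topD B (av T₀)) 1, ∀ p ∈ T₀, nm B p (z - 1) < ε :=
    ball_mem B T₀ hε
  filter_upwards [h1, h2] with z hz0 hz hsz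
  refine h z hsz hz0 fun φ hφ => ?_
  rw [star_one, mul_one]
  exact H616.nearR_of_nm B φ (hz _ (hinf φ hφ))

/-- **The local homomorphism over number fields.** -/
theorem psi_nf (hS : Setting k K D d s) (hn : Odd n) (hdeg : finrank K D = n ^ 2)
    (B : Basis (Fin M) k D) (T T₀ : Finset (Pl k)) [Nonempty T] [Nonempty T₀] (hTT : T ⊆ T₀)
    (hinf : ∀ φ : k →+* ℝ, φ d < 0 → (Sum.inr φ : Pl k) ∈ T₀)
    (hT : ∀ p ∈ T, ∃ v : HeightOneSpectrum (𝓞 k), p = Sum.inl v ∧ d ∈ LS (v.valuation k) ∧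
      Nonempty (K →ₐ[k] v.adicCompletion k))
    {E : Type*} [AddCommGroup E] {W : Set D} {ch C : D → E} {κ : K}
    (hc : letI := topD B (av T); Chr K W ch) (hL : letI := topD B (av T); LCd ch κ C) :
    ∃ Psi : D → E, (∀ᶠ p in @nhds D (topD B (av T₀)) 1 ×ˢ @nhds D (topD B (av T₀)) 1,
      Psi (p.1 * p.2) = Psi p.1 + Psi p.2) ∧
      ∀ᶠ g in @nhds D (topD B (av T₀)) 1, Commute g (star g) → Psi g = ch (star g * g⁻¹) := by
  have hfixK : ∀ c : k, star (algebraMap k K c) = algebraMap k K c := fun c =>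
    (hS.fix _).mpr ⟨c, rfl⟩
  have hst : ∀ c : K, star (algebraMap K D c) = algebraMap K D (star c) := hS.star_alg
  have hstk : ∀ (c : k) (x : D), star (c • x) = c • star x := by
    intro c x
    rw [← algebraMap_smul K c x, hS.star_smul, hfixK, algebraMap_smul]
  -- the fine filter
  have hpure : pure 1 ≤ @nhds D (topD B (av T₀)) 1 := by
    letI := topD B (av T₀)
    exact pure_le_nhds 1
  have hmul : Tendsto (fun p : D × D => p.1 * p.2)
      (@nhds D (topD B (av T₀)) 1 ×ˢ @nhds D (topD B (av T₀)) 1)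
      (@nhds D (topD B (av T₀)) 1) := by
    letI := topD B (av T₀)
    have hr : IsTopologicalRing D := isTopologicalRing B (av T₀)
    have h2 := (continuous_mul (M := D)).tendsto ((1 : D), (1 : D))
    rwa [nhds_prod_eq, mul_one] at h2
  have hlin : ∀ γ : K, γ + star γ ≠ 0 → ∀ᶠ g in @nhds D (topD B (av T₀)) 1,
      H373.Odd.Sy K (algebraMap K D γ * g + star (algebraMap K D γ * g)) := by
    intro γ hγ
    letI := topD B (av T₀)
    have hr : IsTopologicalRing D := isTopologicalRing B (av T₀)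
    have hs : ContinuousStar D := inst_star B T₀ hstk
    exact H616.sy_lin hst (sy_near_one hS hn hdeg B T₀ hinf) hγ
  have hle := nhds_anti B hTT (1 : D)
  letI := topD B (av T)
  have hdiv : IsTopologicalDivisionRing D := isTopologicalDivisionRing B (av T)
  have ht2 : T2Space D := t2 B (av T)
  have hs : ContinuousStar D := inst_star B T hstk
  have hnd := nd_nf B T hfixK (K := K)
  have hsp := spt_nf B T hS fun p hp => by
    obtain ⟨v, h1, h2, -⟩ := hT p hp
    exact ⟨v, h1, h2⟩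
  have hwu := wu_nf B T hS fun p hp => by
    obtain ⟨v, h1, -, h2⟩ := hT p hp
    exact ⟨v, h1, h2⟩
  exact exists_psi_dom hst hc hL (rep0_of hst hwu hsp hnd) (rep1_of hst hwu hsp) hle hpure hmul
    (H616.dom hnd hL.ne hlin)

end nf

end Vale.Agent.P011.H182.Odd
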